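import Mathlib
import Vale.Agent.P113.Defs
import Vale.Agent.P113.Final

namespace Vale.Agent.Results.P113.HaltingDetection

open Set Vale.Agent.P113

theorem result :
    ∀ ν : ℝ, 0 < ν → IsComputableReal ν →
    ∃ (a : V3) (O : Set T3), IsOpen O ∧
    ∃ (compile : Machine × List ℕ → Nat.Partrec.Code)
      (F : Machine → List ℕ → ℝ → V3 → V3) (T₀ : ℝ),
      Computable compile ∧ 0 ≤ T₀ ∧
      (∀ M w w' t x, T₀ ≤ t → F M w t x = F M w' t x) ∧
      (∀ M M' w t x, 0 ≤ t → t ≤ T₀ → F M w t x = F M' w t x) ∧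
      ∀ (M : Machine) (w : List ℕ),
        (∀ t, 0 ≤ t → SpacePeriodic (F M w t)) ∧
        SmoothForward (F M w) ∧
        IsEffective (F M w) (compile (M, w)) ∧
        (∃ τ, 0 < τ ∧ ∀ t x, T₀ ≤ t → F M w (t + τ) x = F M w t x) ∧
        ∃ (u : ℝ → V3 → V3) (p : ℝ → V3 → ℝ),
          SmoothForward u ∧ SmoothForward p ∧
          (∀ T, 0 < T → IsClassicalSolution ν (F M w) T u p) ∧
          (∀ T, 0 < T → ∀ (v : ℝ → V3 → V3) (q : ℝ → V3 → ℝ),
            IsClassicalSolution ν (F M w) T v q →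
              ∀ t ∈ Icc 0 T, ∀ x, v t x = u t x ∧ q t x = p t x) ∧
          (∃ X, IsTrajectory u a X) ∧
          ∀ X, IsTrajectory u a X → ((∃ t, 0 ≤ t ∧ proj (X t) ∈ O) ↔ Halts M w) :=
  fun ν hν hc => main ν hν hc

end Vale.Agent.Results.P113.HaltingDetection
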